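import Vale.Agent.Lib.P348.helper23.Core

namespace Vale.Agent.Results.P348.GapUpperBound

open Matrix

open Vale.Agent.Lib.P348

/-- A uniform upper bound for the finite-size gaps of the spin-one antiferromagnetic
Heisenberg ring.  For every even `L ≥ 4` let `E₀` be the least eigenvalue of the Hamiltonian
`ringH L` (the sum over the sites `j` of the ring of `S_j · S_(j+1)`) and `E₁` the least
eigenvalue strictly above `E₀`.  Then `E₁ - E₀ ≤ 4 √3`.  In the statement the eigenvalues of
the Hermitian matrix `ringH L` are listed with multiplicity and indexed by `k`; `k0` is an index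
of the least eigenvalue and `k1` an index of the least eigenvalue above it. -/
theorem result (L : ℕ) (hL : 4 ≤ L) (heven : Even L) :
    ∃ k0 k1 : Fin L → Fin 3,
      (∀ k, (ringH_isHermitian L).eigenvalues k0 ≤ (ringH_isHermitian L).eigenvalues k) ∧
      (ringH_isHermitian L).eigenvalues k0 < (ringH_isHermitian L).eigenvalues k1 ∧
      (∀ k, (ringH_isHermitian L).eigenvalues k0 < (ringH_isHermitian L).eigenvalues k →
        (ringH_isHermitian L).eigenvalues k1 ≤ (ringH_isHermitian L).eigenvalues k) ∧
      (ringH_isHermitian L).eigenvalues k1 - (ringH_isHermitian L).eigenvalues k0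
        ≤ 4 * Real.sqrt 3 :=
  Vale.Agent.Lib.P348.H23.gap_le L hL heven

end Vale.Agent.Results.P348.GapUpperBound
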